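import Mathlib

/-!
Frobenius-norm bookkeeping for complex matrices: the matrix-unit completeness relations
used in the third-moment identity for mutually unbiased bases.
-/

namespace Vale.Agent.Lib.P355

open Matrix

variable {d : ℕ}

/-- Square complex matrices of size `d`. -/
abbrev Mat (d : ℕ) := Matrix (Fin d) (Fin d) ℂ

/-- Squared Frobenius norm. -/
noncomputable def hs (Z : Mat d) : ℝ := ∑ a, ∑ b, ‖Z a b‖ ^ 2

/-- Commutator. -/
def cmt (A B : Mat d) : Mat d := A * B - B * A

/-- Matrix units. -/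
def E (g : Fin d × Fin d) : Mat d := Matrix.single g.1 g.2 1

lemma hs_nonneg (Z : Mat d) : 0 ≤ hs Z := by
  unfold hs; positivity

lemma ofReal_hs (Z : Mat d) : ((hs Z : ℝ) : ℂ) = trace (Zᴴ * Z) := by
  unfold hs
  simp only [Complex.ofReal_sum, Complex.ofReal_pow, Matrix.trace, Matrix.diag_apply,
    Matrix.mul_apply, conjTranspose_apply]
  rw [Finset.sum_comm]
  refine Finset.sum_congr rfl fun b _ => Finset.sum_congr rfl fun a _ => ?_
  rw [Complex.star_def, Complex.conj_mul']

lemma trace_E_mul (g : Fin d × Fin d) (Z : Mat d) : trace (E g * Z) = Z g.2 g.1 := by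
  classical
  obtain ⟨p, q⟩ := g
  simp only [E, Matrix.trace, Matrix.diag_apply, Matrix.mul_apply, Matrix.single_apply]
  rw [Finset.sum_eq_single p, Finset.sum_eq_single q]
  · simp
  · intro b _ hb; simp [Ne.symm hb]
  · simp
  · intro a _ ha
    apply Finset.sum_eq_zero
    intro b _
    simp [Ne.symm ha]
  · simp

lemma sum_norm_trace_E (Z : Mat d) : ∑ g, ‖trace (E g * Z)‖ ^ 2 = hs Z := by
  unfold hs
  rw [Fintype.sum_prod_type, Finset.sum_comm]
  refine Finset.sum_congr rfl fun b _ => Finset.sum_congr rfl fun a _ => ?_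
  rw [trace_E_mul]

lemma hs_one : hs (1 : Mat d) = d := by
  classical
  unfold hs
  have : ∀ a : Fin d, ∑ b : Fin d, ‖(1 : Mat d) a b‖ ^ 2 = 1 := by
    intro a
    rw [Finset.sum_eq_single a]
    · simp
    · intro b _ hb
      simp [Matrix.one_apply_ne (Ne.symm hb)]
    · simp
  simp [this]

lemma hs_E (g : Fin d × Fin d) : hs (E g) = 1 := by
  classical
  obtain ⟨p, q⟩ := g
  unfold hs E
  rw [Finset.sum_eq_single p, Finset.sum_eq_single q]
  · simp
  · intro b _ hb
    simp [Ne.symm hb]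
  · simp
  · intro a _ ha
    apply Finset.sum_eq_zero
    intro b _
    simp [Ne.symm ha]
  · simp

lemma sum_hs_E : ∑ g : Fin d × Fin d, hs (E g) = (d : ℝ) ^ 2 := by
  simp [hs_E, Fintype.card_prod, pow_two]

lemma hs_cmt_swap (A B : Mat d) : hs (cmt A B) = hs (cmt B A) := by
  unfold hs cmt
  refine Finset.sum_congr rfl fun a _ => Finset.sum_congr rfl fun b _ => ?_
  have : (A * B - B * A) a b = - (B * A - A * B) a b := by
    simp
  rw [this, norm_neg]

lemma cmt_E_apply (g : Fin d × Fin d) (u : Mat d) (p q : Fin d) :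
    (cmt (E g) u) p q
      = (if p = g.1 then u g.2 q else 0) - (if q = g.2 then u p g.1 else 0) := by
  classical
  obtain ⟨r, s⟩ := g
  simp only [cmt, E, Matrix.sub_apply, Matrix.mul_apply, Matrix.single_apply]
  congr 1
  · by_cases hp : p = r
    · subst hp
      rw [Finset.sum_eq_single s]
      · simp
      · intro c _ hc; simp [Ne.symm hc]
      · simp
    · simp [hp, Ne.symm hp]
  · by_cases hq : q = s
    · subst hq
      rw [Finset.sum_eq_single r]
      · simp
      · intro c _ hc; simp [Ne.symm hc]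
      · simp
    · simp [hq, Ne.symm hq]

lemma norm_sq_sub (x y : ℂ) : ‖x - y‖ ^ 2 = ‖x‖ ^ 2 + ‖y‖ ^ 2 - 2 * (x * star y).re := by
  rw [Complex.sq_norm, Complex.sq_norm, Complex.sq_norm]
  simp [Complex.normSq_apply, Complex.mul_re]
  ring

/-- `Σ_g ‖[E_g, u]‖² = 2 d ‖u‖² - 2 |tr u|²`. -/
lemma sum_hs_cmt_E (u : Mat d) :
    ∑ g, hs (cmt (E g) u) = 2 * d * hs u - 2 * ‖trace u‖ ^ 2 := by
  classical
  -- pointwise formula for one matrix unit
  have s1 : ∀ g : Fin d × Fin d, hs (cmt (E g) u)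
      = (∑ q, ‖u g.2 q‖ ^ 2) + (∑ p, ‖u p g.1‖ ^ 2)
        - 2 * (u g.2 g.2 * star (u g.1 g.1)).re := by
    intro g
    have expand : ∀ p q : Fin d, ‖(cmt (E g) u) p q‖ ^ 2
        = (if p = g.1 then ‖u g.2 q‖ ^ 2 else 0) + (if q = g.2 then ‖u p g.1‖ ^ 2 else 0)
          - 2 * (if p = g.1 then (if q = g.2 then (u g.2 g.2 * star (u g.1 g.1)).re else 0)
              else 0) := by
      intro p q
      rw [cmt_E_apply, norm_sq_sub]
      by_cases hp : p = g.1 <;> by_cases hq : q = g.2
      · subst hp; subst hq; simp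
      · subst hp; simp [hq]
      · subst hq; simp [hp]
      · simp [hp, hq]
    unfold hs
    simp only [expand, Finset.sum_sub_distrib, Finset.sum_add_distrib, ← Finset.mul_sum]
    congr 1
    · congr 1
      · simp
      · rw [Finset.sum_comm]; simp
    · simp
  -- the three summed pieces
  have h1 : ∑ g : Fin d × Fin d, ∑ q, ‖u g.2 q‖ ^ 2 = d * hs u := by
    rw [Fintype.sum_prod_type]
    simp [hs]
  have h2 : ∑ g : Fin d × Fin d, ∑ p, ‖u p g.1‖ ^ 2 = d * hs u := by
    rw [Fintype.sum_prod_type]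
    have : hs u = ∑ b, ∑ a, ‖u a b‖ ^ 2 := by
      unfold hs; rw [Finset.sum_comm]
    rw [this]
    simp [Finset.card_univ, Finset.mul_sum]
  have h3 : ∑ g : Fin d × Fin d, (u g.2 g.2 * star (u g.1 g.1)).re = ‖trace u‖ ^ 2 := by
    have : ‖trace u‖ ^ 2 = (trace u * star (trace u)).re := by
      rw [Complex.star_def, Complex.mul_conj, Complex.normSq_eq_norm_sq, Complex.ofReal_re]
    rw [this, Fintype.sum_prod_type]
    simp only [Matrix.trace, Matrix.diag_apply, star_sum, Finset.sum_mul, Finset.mul_sum,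
      Complex.re_sum]
  simp only [s1, Finset.sum_sub_distrib, Finset.sum_add_distrib, ← Finset.mul_sum, h1, h2, h3]
  ring

end Vale.Agent.Lib.P355
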