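import Vale.Agent.Lib.P355.Basic

/-!
Abstract frame removal.  For a family `Q` of Hermitian matrices with `R Q (Q y) = 0`,
the map `R Q` is the orthogonal projection onto the complement of the span of `Q`.  We expand
`Σ_{e,f,g} |tr (R e [R f, R g])|²` in terms of the family `Q` alone.
-/

namespace Vale.Agent.Lib.P355

open Matrix

variable {d : ℕ} {X : Type*} [Fintype X]

/-- The trilinear form `tr (A [B, C])`. -/
def om (A B C : Mat d) : ℂ := trace (A * cmt B C)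

lemma om_cyc (A B C : Mat d) : om A B C = om B C A := by
  unfold om cmt
  rw [mul_sub, mul_sub, trace_sub, trace_sub]
  congr 1
  · rw [trace_mul_comm A, mul_assoc]
  · rw [← mul_assoc, trace_mul_comm]

lemma sum_norm_om_E (A B : Mat d) : ∑ g, ‖om (E g) A B‖ ^ 2 = hs (cmt A B) :=
  sum_norm_trace_E _

/-- Removing the span of a family. -/
noncomputable def R (Q : X → Mat d) (Z : Mat d) : Mat d := Z - ∑ x, trace (Q x * Z) • Q x

lemma trace_mul_R (Q : X → Mat d) (Y Z : Mat d) : trace (Y * R Q Z) = trace (R Q Y * Z) := by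
  unfold R
  simp only [mul_sub, sub_mul, trace_sub, Finset.mul_sum, Finset.sum_mul, trace_sum,
    mul_smul_comm, smul_mul_assoc, trace_smul, smul_eq_mul]
  congr 1
  refine Finset.sum_congr rfl fun x _ => ?_
  rw [trace_mul_comm Y (Q x), mul_comm]

lemma trace_Q_mul_R (Q : X → Mat d) (hf : ∀ y, R Q (Q y) = 0) (x : X) (Y : Mat d) :
    trace (Q x * R Q Y) = 0 := by
  rw [trace_mul_R, hf, zero_mul, trace_zero]

lemma R_R (Q : X → Mat d) (hf : ∀ y, R Q (Q y) = 0) (Y : Mat d) : R Q (R Q Y) = R Q Y := by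
  have : R Q (R Q Y) = R Q Y - ∑ x, trace (Q x * R Q Y) • Q x := rfl
  rw [this]
  simp only [trace_Q_mul_R Q hf, zero_smul, Finset.sum_const_zero, sub_zero]

lemma conjTranspose_R (Q : X → Mat d) (hQ : ∀ x, (Q x)ᴴ = Q x) (Y : Mat d) :
    (R Q Y)ᴴ = R Q Yᴴ := by
  unfold R
  rw [conjTranspose_sub, conjTranspose_sum]
  congr 1
  refine Finset.sum_congr rfl fun x _ => ?_
  rw [conjTranspose_smul, hQ]
  congr 1
  rw [← Matrix.trace_conjTranspose, conjTranspose_mul, hQ, trace_mul_comm]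

lemma hs_R (Q : X → Mat d) (hQ : ∀ x, (Q x)ᴴ = Q x) (hf : ∀ y, R Q (Q y) = 0) (Y : Mat d) :
    hs (R Q Y) = hs Y - ∑ x, ‖trace (Q x * Y)‖ ^ 2 := by
  have h : ((hs (R Q Y) : ℝ) : ℂ) = ((hs Y - ∑ x, ‖trace (Q x * Y)‖ ^ 2 : ℝ) : ℂ) := by
    rw [ofReal_hs, conjTranspose_R Q hQ, ← trace_mul_R, R_R Q hf]
    push_cast
    rw [ofReal_hs]
    conv_lhs => unfold R
    simp only [mul_sub, trace_sub, Finset.mul_sum, trace_sum, mul_smul_comm, trace_smul,
      smul_eq_mul]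
    congr 1
    refine Finset.sum_congr rfl fun x _ => ?_
    have : trace (Yᴴ * Q x) = star (trace (Q x * Y)) := by
      rw [← Matrix.trace_conjTranspose, conjTranspose_mul, hQ]
    rw [this, Complex.star_def, Complex.mul_conj, Complex.normSq_eq_norm_sq]
    push_cast
    ring
  exact_mod_cast h

lemma sum_norm_trace_R (Q : X → Mat d) (hQ : ∀ x, (Q x)ᴴ = Q x) (hf : ∀ y, R Q (Q y) = 0)
    (Y : Mat d) :
    ∑ g, ‖trace (R Q (E g) * Y)‖ ^ 2 = hs Y - ∑ x, ‖trace (Q x * Y)‖ ^ 2 := by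
  rw [← hs_R Q hQ hf, ← sum_norm_trace_E]
  refine Finset.sum_congr rfl fun g _ => ?_
  rw [trace_mul_comm, trace_mul_R, trace_mul_comm]

lemma rem1 (Q : X → Mat d) (hQ : ∀ x, (Q x)ᴴ = Q x) (hf : ∀ y, R Q (Q y) = 0) (A B : Mat d) :
    ∑ g, ‖om (R Q (E g)) A B‖ ^ 2 = hs (cmt A B) - ∑ x, ‖om (Q x) A B‖ ^ 2 :=
  sum_norm_trace_R Q hQ hf _

/-- The inner double sum, for a fixed first argument. -/
lemma inner_sum (Q : X → Mat d) (hQ : ∀ x, (Q x)ᴴ = Q x) (hf : ∀ y, R Q (Q y) = 0) (A : Mat d) :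
    ∑ f, ∑ g, ‖om A (R Q (E f)) (R Q (E g))‖ ^ 2
      = (2 * d * hs A - 2 * ‖trace A‖ ^ 2) - 2 * ∑ x, hs (cmt A (Q x))
        + ∑ x, ∑ y, ‖om (Q y) (Q x) A‖ ^ 2 := by
  have step1 : ∀ f, ∑ g, ‖om A (R Q (E f)) (R Q (E g))‖ ^ 2
      = hs (cmt A (R Q (E f))) - ∑ x, ‖om (Q x) A (R Q (E f))‖ ^ 2 := by
    intro f
    rw [← rem1 Q hQ hf]
    refine Finset.sum_congr rfl fun g _ => ?_
    rw [om_cyc A, om_cyc (R Q (E f))]
  have step2 : ∑ f, hs (cmt A (R Q (E f)))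
      = (2 * d * hs A - 2 * ‖trace A‖ ^ 2) - ∑ x, hs (cmt A (Q x)) := by
    calc ∑ f, hs (cmt A (R Q (E f)))
        = ∑ f, ∑ g, ‖om (R Q (E f)) (E g) A‖ ^ 2 := by
          refine Finset.sum_congr rfl fun f _ => ?_
          rw [← sum_norm_om_E]
          refine Finset.sum_congr rfl fun g _ => ?_
          rw [om_cyc (E g), om_cyc A]
      _ = ∑ g, ∑ f, ‖om (R Q (E f)) (E g) A‖ ^ 2 := Finset.sum_comm
      _ = ∑ g, (hs (cmt (E g) A) - ∑ x, ‖om (Q x) (E g) A‖ ^ 2) := by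
          refine Finset.sum_congr rfl fun g _ => ?_
          rw [rem1 Q hQ hf]
      _ = ∑ g, hs (cmt (E g) A) - ∑ x, ∑ g, ‖om (E g) A (Q x)‖ ^ 2 := by
          rw [Finset.sum_sub_distrib, Finset.sum_comm]
          congr 1
          refine Finset.sum_congr rfl fun x _ => Finset.sum_congr rfl fun g _ => ?_
          rw [om_cyc (Q x)]
      _ = _ := by
          rw [sum_hs_cmt_E]
          congr 1
          refine Finset.sum_congr rfl fun x _ => ?_
          rw [sum_norm_om_E]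
  have step3 : ∀ x, ∑ f, ‖om (Q x) A (R Q (E f))‖ ^ 2
      = hs (cmt (Q x) A) - ∑ y, ‖om (Q y) (Q x) A‖ ^ 2 := by
    intro x
    rw [← rem1 Q hQ hf]
    refine Finset.sum_congr rfl fun f _ => ?_
    rw [om_cyc (Q x), om_cyc A]
  simp only [step1, Finset.sum_sub_distrib]
  rw [step2, Finset.sum_comm]
  simp only [step3, Finset.sum_sub_distrib]
  have : ∀ x, hs (cmt (Q x) A) = hs (cmt A (Q x)) := fun x => hs_cmt_swap _ _
  simp only [this]
  ring

/-- Expansion of the total sum of squares. -/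
theorem frame_expansion (Q : X → Mat d) (hQ : ∀ x, (Q x)ᴴ = Q x) (hf : ∀ y, R Q (Q y) = 0) :
    ∑ e, ∑ f, ∑ g, ‖om (R Q (E e)) (R Q (E f)) (R Q (E g))‖ ^ 2
      = 2 * d * ((d : ℝ) ^ 2 - ∑ x, hs (Q x)) - 2 * ((d : ℝ) - ∑ x, ‖trace (Q x)‖ ^ 2)
        - 2 * ∑ x, ((2 * d * hs (Q x) - 2 * ‖trace (Q x)‖ ^ 2) - ∑ y, hs (cmt (Q y) (Q x)))
        + ∑ x, ∑ y, (hs (cmt (Q y) (Q x)) - ∑ z, ‖om (Q z) (Q y) (Q x)‖ ^ 2) := by
  have a1 : ∑ e, hs (R Q (E e)) = (d : ℝ) ^ 2 - ∑ x, hs (Q x) := by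
    simp only [hs_R Q hQ hf, Finset.sum_sub_distrib, sum_hs_E]
    congr 1
    rw [Finset.sum_comm]
    refine Finset.sum_congr rfl fun x _ => ?_
    rw [← sum_norm_trace_E (Q x)]
    refine Finset.sum_congr rfl fun e _ => ?_
    rw [trace_mul_comm]
  have a2 : ∑ e, ‖trace (R Q (E e))‖ ^ 2 = (d : ℝ) - ∑ x, ‖trace (Q x)‖ ^ 2 := by
    have := sum_norm_trace_R Q hQ hf (1 : Mat d)
    simpa [hs_one] using this
  have a3 : ∀ x, ∑ e, hs (cmt (R Q (E e)) (Q x))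
      = (2 * d * hs (Q x) - 2 * ‖trace (Q x)‖ ^ 2) - ∑ y, hs (cmt (Q y) (Q x)) := by
    intro x
    calc ∑ e, hs (cmt (R Q (E e)) (Q x))
        = ∑ e, ∑ g, ‖om (R Q (E e)) (Q x) (E g)‖ ^ 2 := by
          refine Finset.sum_congr rfl fun e _ => ?_
          rw [← sum_norm_om_E]
          refine Finset.sum_congr rfl fun g _ => ?_
          rw [om_cyc (E g), om_cyc (R Q (E e))]
      _ = ∑ g, ∑ e, ‖om (R Q (E e)) (Q x) (E g)‖ ^ 2 := Finset.sum_comm
      _ = ∑ g, (hs (cmt (Q x) (E g)) - ∑ y, ‖om (Q y) (Q x) (E g)‖ ^ 2) := by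
          refine Finset.sum_congr rfl fun g _ => ?_
          rw [rem1 Q hQ hf]
      _ = ∑ g, hs (cmt (E g) (Q x)) - ∑ y, ∑ g, ‖om (E g) (Q y) (Q x)‖ ^ 2 := by
          rw [Finset.sum_sub_distrib, Finset.sum_comm (s := Finset.univ) (t := Finset.univ)]
          congr 1
          · refine Finset.sum_congr rfl fun g _ => ?_
            rw [hs_cmt_swap]
          · refine Finset.sum_congr rfl fun y _ => Finset.sum_congr rfl fun g _ => ?_
            rw [om_cyc (Q y), om_cyc (Q x)]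
      _ = _ := by
          rw [sum_hs_cmt_E]
          congr 1
          refine Finset.sum_congr rfl fun y _ => ?_
          rw [sum_norm_om_E]
  have a4 : ∀ x y, ∑ e, ‖om (Q y) (Q x) (R Q (E e))‖ ^ 2
      = hs (cmt (Q y) (Q x)) - ∑ z, ‖om (Q z) (Q y) (Q x)‖ ^ 2 := by
    intro x y
    rw [← rem1 Q hQ hf]
    refine Finset.sum_congr rfl fun e _ => ?_
    rw [om_cyc (Q y), om_cyc (Q x)]
  simp only [inner_sum Q hQ hf, Finset.sum_add_distrib, Finset.sum_sub_distrib, ← Finset.mul_sum]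
  rw [a1, a2]
  rw [Finset.sum_comm (s := Finset.univ) (t := Finset.univ)
    (f := fun e x => hs (cmt (R Q (E e)) (Q x)))]
  simp only [a3]
  have a5 : ∑ e, ∑ x, ∑ y, ‖om (Q y) (Q x) (R Q (E e))‖ ^ 2
      = ∑ x, ∑ y, (hs (cmt (Q y) (Q x)) - ∑ z, ‖om (Q z) (Q y) (Q x)‖ ^ 2) := by
    rw [Finset.sum_comm]
    refine Finset.sum_congr rfl fun x _ => ?_
    rw [Finset.sum_comm]
    refine Finset.sum_congr rfl fun y _ => ?_
    exact a4 x y
  rw [a5]
  simp only [Finset.sum_sub_distrib, ← Finset.mul_sum]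

end Vale.Agent.Lib.P355
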