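import Vale.Agent.Lib.P355.Mub

/-!
The third-moment identity for `m` mutually unbiased bases in dimension `d`.
-/

namespace Vale.Agent.Lib.P355

open Matrix

variable {d m : ℕ}

lemma count_two (j : Fin m) (c : ℝ) :
    ∑ l : Fin m, (if l ≠ j then c else 0) = ((m : ℝ) - 1) * c := by
  classical
  have : ∀ l : Fin m, (if l ≠ j then c else 0) = c - (if l = j then c else 0) := by
    intro l
    by_cases h : l = j <;> simp [h]
  simp only [this, Finset.sum_sub_distrib]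
  simp [Finset.card_univ]
  ring

lemma count_three_inner (j l : Fin m) (h : j ≠ l) (c : ℝ) :
    ∑ n : Fin m, (if l ≠ n ∧ n ≠ j then c else 0) = ((m : ℝ) - 2) * c := by
  classical
  have : ∀ n : Fin m, (if l ≠ n ∧ n ≠ j then c else 0)
      = c - (if n = l then c else 0) - (if n = j then c else 0) := by
    intro n
    by_cases h1 : n = l
    · subst h1
      have h3 : n ≠ j := Ne.symm h
      simp [h3]
    · by_cases h2 : n = j
      · subst h2
        simp [h1]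
      · simp [h1, h2, Ne.symm h1]
  simp only [this, Finset.sum_sub_distrib]
  simp [Finset.card_univ]
  ring

lemma count_three (c : ℝ) :
    ∑ j : Fin m, ∑ l : Fin m, ∑ n : Fin m, (if j ≠ l ∧ l ≠ n ∧ n ≠ j then c else 0)
      = (m : ℝ) * ((m : ℝ) - 1) * ((m : ℝ) - 2) * c := by
  have h1 : ∀ j l : Fin m, ∑ n : Fin m, (if j ≠ l ∧ l ≠ n ∧ n ≠ j then c else 0)
      = if l ≠ j then ((m : ℝ) - 2) * c else 0 := by
    intro j l
    by_cases h : j = l
    · subst h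
      simp
    · rw [if_pos (Ne.symm h), ← count_three_inner j l h c]
      refine Finset.sum_congr rfl fun n _ => ?_
      simp [h]
  simp only [h1, count_two]
  simp [Finset.card_univ]
  ring

lemma sum_reorg (G : Fin m → Fin m → Fin m → Fin d → Fin d → Fin d → ℝ) :
    ∑ z : Fin m × Fin d, ∑ y : Fin m × Fin d, ∑ x : Fin m × Fin d,
        G z.1 y.1 x.1 z.2 y.2 x.2
      = ∑ j, ∑ l, ∑ n, ∑ a, ∑ b, ∑ c, G j l n a b c := by
  simp only [Fintype.sum_prod_type]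
  refine Finset.sum_congr rfl fun j _ => ?_
  rw [Finset.sum_comm]
  refine Finset.sum_congr rfl fun l _ => ?_
  calc ∑ a, ∑ b, ∑ n, ∑ c, G j l n a b c
      = ∑ a, ∑ n, ∑ b, ∑ c, G j l n a b c :=
        Finset.sum_congr rfl fun a _ => Finset.sum_comm
    _ = _ := Finset.sum_comm

/-- The sum of the real parts of the squares of the triple products over all triples of
distinct colours. -/
noncomputable def S (u : Fin m → Mat d) : ℝ :=
  ∑ j, ∑ l, ∑ n, if j ≠ l ∧ l ≠ n ∧ n ≠ j then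
    ∑ a, ∑ b, ∑ c, ((((u j)ᴴ * u l) a b * ((u l)ᴴ * u n) b c * ((u n)ᴴ * u j) c a) ^ 2).re
    else 0

section mub
variable {u : Fin m → Mat d} (hU : ∀ j, (u j)ᴴ * u j = 1)
  (hM : ∀ j l, j ≠ l → ∀ a b, ‖((u j)ᴴ * u l) a b‖ ^ 2 = 1 / (d : ℝ))

include hU hM in
lemma theta_eval (hd : d ≠ 0) :
    ∑ x, ∑ y, ∑ z, ‖om (Q u z) (Q u y) (Q u x)‖ ^ 2
      = 2 * ((m : ℝ) * ((m : ℝ) - 1) * ((m : ℝ) - 2)) - 2 * S u := by
  have hdr : (d : ℝ) ≠ 0 := by exact_mod_cast hd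
  have e1 : ∑ x, ∑ y, ∑ z, ‖om (Q u z) (Q u y) (Q u x)‖ ^ 2
      = ∑ z, ∑ y, ∑ x, ‖om (Q u z) (Q u y) (Q u x)‖ ^ 2 := by
    calc ∑ x, ∑ y, ∑ z, ‖om (Q u z) (Q u y) (Q u x)‖ ^ 2
        = ∑ x, ∑ z, ∑ y, ‖om (Q u z) (Q u y) (Q u x)‖ ^ 2 :=
          Finset.sum_congr rfl fun x _ => Finset.sum_comm
      _ = ∑ z, ∑ x, ∑ y, ‖om (Q u z) (Q u y) (Q u x)‖ ^ 2 := Finset.sum_comm
      _ = _ := Finset.sum_congr rfl fun z _ => Finset.sum_comm
  rw [e1]
  have e2 := sum_reorg (m := m) (d := d) (fun j l n a b c =>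
    ‖om (Q u (j, a)) (Q u (l, b)) (Q u (n, c))‖ ^ 2)
  simp only [Prod.mk.eta] at e2
  rw [e2]
  have e3 : ∀ j l n : Fin m, ∑ a, ∑ b, ∑ c, ‖om (Q u (j, a)) (Q u (l, b)) (Q u (n, c))‖ ^ 2
      = if j ≠ l ∧ l ≠ n ∧ n ≠ j then
          2 - 2 * ∑ a, ∑ b, ∑ c,
            ((((u j)ᴴ * u l) a b * ((u l)ᴴ * u n) b c * ((u n)ᴴ * u j) c a) ^ 2).re
        else 0 := by
    intro j l n
    by_cases h : j ≠ l ∧ l ≠ n ∧ n ≠ j
    · rw [if_pos h]
      have : ∀ a b c, ‖om (Q u (j, a)) (Q u (l, b)) (Q u (n, c))‖ ^ 2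
          = 2 / (d : ℝ) ^ 3
            - 2 * (((((u j)ᴴ * u l) a b * ((u l)ᴴ * u n) b c * ((u n)ᴴ * u j) c a) ^ 2).re) := by
        intro a b c
        rw [norm_om_Q_eq hU hM hd, if_pos h]
        rfl
      simp only [this, Finset.sum_sub_distrib, ← Finset.mul_sum]
      simp [Finset.card_univ]
      field_simp
    · rw [if_neg h]
      have : ∀ a b c, ‖om (Q u (j, a)) (Q u (l, b)) (Q u (n, c))‖ ^ 2 = 0 := by
        intro a b c
        rw [norm_om_Q_eq hU hM hd, if_neg h]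
      simp [this]
  simp only [e3]
  have e4 : ∀ j l n : Fin m, (if j ≠ l ∧ l ≠ n ∧ n ≠ j then
          2 - 2 * ∑ a, ∑ b, ∑ c,
            ((((u j)ᴴ * u l) a b * ((u l)ᴴ * u n) b c * ((u n)ᴴ * u j) c a) ^ 2).re
        else 0)
      = (if j ≠ l ∧ l ≠ n ∧ n ≠ j then (2 : ℝ) else 0)
        - 2 * (if j ≠ l ∧ l ≠ n ∧ n ≠ j then ∑ a, ∑ b, ∑ c,
            ((((u j)ᴴ * u l) a b * ((u l)ᴴ * u n) b c * ((u n)ᴴ * u j) c a) ^ 2).re else 0) := by
    intro j l n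
    by_cases h : j ≠ l ∧ l ≠ n ∧ n ≠ j
    · rw [if_pos h, if_pos h, if_pos h]
    · rw [if_neg h, if_neg h, if_neg h]; ring
  simp only [e4, Finset.sum_sub_distrib, ← Finset.mul_sum, count_three]
  unfold S
  ring

include hU hM in
lemma H_eval (hd : d ≠ 0) :
    ∑ x : Fin m × Fin d, ∑ y : Fin m × Fin d, hs (cmt (Q u y) (Q u x))
      = 2 * (m : ℝ) * ((m : ℝ) - 1) * ((d : ℝ) - 1) := by
  have hdr : (d : ℝ) ≠ 0 := by exact_mod_cast hd
  simp only [hs_cmt_Q hU hM hd, Fintype.sum_prod_type]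
  have inner : ∀ (j : Fin m), ∑ l : Fin m, ∑ _b : Fin d,
      (if l ≠ j then 2 / (d : ℝ) - 2 / (d : ℝ) ^ 2 else 0)
      = ((m : ℝ) - 1) * ((d : ℝ) * (2 / (d : ℝ) - 2 / (d : ℝ) ^ 2)) := by
    intro j
    rw [← count_two j]
    refine Finset.sum_congr rfl fun l _ => ?_
    by_cases h : l = j
    · simp [h]
    · simp [h, Finset.card_univ]
      ring
  simp only [inner]
  simp [Finset.card_univ]
  field_simp

include hU hM in
/-- The third-moment identity. -/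
theorem third_moment_identity (hd : d ≠ 0) :
    ∑ e, ∑ f, ∑ g, ‖om (R (Q u) (E e)) (R (Q u) (E f)) (R (Q u) (E g))‖ ^ 2
      = 2 * (((d : ℝ) + 1 - m) * ((d : ℝ) - m) * ((d : ℝ) - 1 - m) + S u) := by
  have hdr : (d : ℝ) ≠ 0 := by exact_mod_cast hd
  rw [frame_expansion (Q u) (Q_herm u) (frame hU hM hd)]
  simp only [Finset.sum_sub_distrib, ← Finset.mul_sum]
  have hH := H_eval hU hM hd
  have hT := theta_eval hU hM hd
  rw [hH, hT]
  simp only [hs_Q hU hd, trace_Q hU hd, norm_zero]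
  simp [Finset.card_univ]
  field_simp
  ring

include hU hM in
/-- The third-moment inequality. -/
theorem third_moment_ineq (hd : d ≠ 0) :
    -(((d : ℝ) + 1 - m) * ((d : ℝ) - m) * ((d : ℝ) - 1 - m)) ≤ S u := by
  have h := third_moment_identity hU hM hd
  have h0 : 0 ≤ ∑ e, ∑ f, ∑ g, ‖om (R (Q u) (E e)) (R (Q u) (E f)) (R (Q u) (E g))‖ ^ 2 := by
    positivity
  rw [h] at h0
  linarith

end mub

end Vale.Agent.Lib.P355
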