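import Vale.Agent.Lib.P355.Frame

/-!
The concrete frame attached to a family of mutually unbiased orthonormal bases, given as the
columns of unitary matrices.
-/

namespace Vale.Agent.Lib.P355

open Matrix

variable {d m : ℕ}

/-- Overlap of the column `x.2` of `u x.1` with the column `y.2` of `u y.1`. -/
def o (u : Fin m → Mat d) (x y : Fin m × Fin d) : ℂ := ((u x.1)ᴴ * u y.1) x.2 y.2

/-- The rank-one matrix built from a column and the adjoint of another column. -/
def B (u : Fin m → Mat d) (x y : Fin m × Fin d) : Mat d :=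
  Matrix.of fun a b => u x.1 a x.2 * star (u y.1 b y.2)

/-- Rank-one projector onto a column. -/
def P (u : Fin m → Mat d) (x : Fin m × Fin d) : Mat d := B u x x

/-- Traceless part of the projector. -/
noncomputable def Q (u : Fin m → Mat d) (x : Fin m × Fin d) : Mat d :=
  P u x - ((d : ℂ)⁻¹) • 1

section basic
variable (u : Fin m → Mat d)

lemma o_eq (x y : Fin m × Fin d) : o u x y = ∑ a, star (u x.1 a x.2) * u y.1 a y.2 := by
  simp [o, Matrix.mul_apply]

lemma B_mul_B (x y w z : Fin m × Fin d) : B u x y * B u w z = o u y w • B u x z := by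
  ext a b
  simp only [B, Matrix.mul_apply, Matrix.of_apply, Matrix.smul_apply, smul_eq_mul, o_eq,
    Finset.sum_mul]
  refine Finset.sum_congr rfl fun c _ => ?_
  ring

lemma trace_B (x y : Fin m × Fin d) : trace (B u x y) = o u y x := by
  simp only [Matrix.trace, Matrix.diag_apply, B, Matrix.of_apply, o_eq]
  refine Finset.sum_congr rfl fun c _ => ?_
  ring

lemma conjTranspose_B (x y : Fin m × Fin d) : (B u x y)ᴴ = B u y x := by
  ext a b
  simp [B, Matrix.conjTranspose_apply, mul_comm]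

lemma star_o (x y : Fin m × Fin d) : star (o u x y) = o u y x := by
  simp only [o_eq, star_sum, star_mul', star_star]
  refine Finset.sum_congr rfl fun c _ => ?_
  ring

lemma o_mul_o (x y : Fin m × Fin d) : o u x y * o u y x = ((‖o u x y‖ ^ 2 : ℝ) : ℂ) := by
  rw [← star_o u x y, Complex.star_def, Complex.mul_conj, Complex.normSq_eq_norm_sq]

lemma P_herm (x : Fin m × Fin d) : (P u x)ᴴ = P u x := conjTranspose_B u x x

lemma Q_herm (x : Fin m × Fin d) : (Q u x)ᴴ = Q u x := by
  unfold Q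
  rw [conjTranspose_sub, P_herm, conjTranspose_smul, conjTranspose_one]
  simp

lemma cmt_Q (x y : Fin m × Fin d) : cmt (Q u x) (Q u y) = cmt (P u x) (P u y) := by
  unfold cmt Q
  simp only [sub_mul, mul_sub, smul_mul_assoc, mul_smul_comm, one_mul, mul_one, smul_sub]
  abel

lemma trace_cmt (A C : Mat d) : trace (cmt A C) = 0 := by
  unfold cmt
  rw [trace_sub, trace_mul_comm, sub_self]

/-- The triple product appearing in the theorem. -/
def t (x y z : Fin m × Fin d) : ℂ := o u x y * o u y z * o u z x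

lemma trace_P_P_P (x y z : Fin m × Fin d) : trace (P u x * (P u y * P u z)) = t u x y z := by
  unfold P t
  rw [B_mul_B, mul_smul_comm, B_mul_B, smul_smul, trace_smul, trace_B, smul_eq_mul]
  ring

lemma om_Q (x y z : Fin m × Fin d) : om (Q u x) (Q u y) (Q u z) = t u x y z - t u x z y := by
  unfold om
  rw [cmt_Q]
  have : Q u x * cmt (P u y) (P u z)
      = P u x * (P u y * P u z) - P u x * (P u z * P u y) - ((d : ℂ)⁻¹) • cmt (P u y) (P u z) := by
    unfold Q
    rw [sub_mul, smul_mul_assoc, one_mul]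
    unfold cmt
    rw [mul_sub]
  rw [this, trace_sub, trace_sub, trace_smul, trace_cmt, trace_P_P_P, trace_P_P_P]
  simp

lemma star_t (x y z : Fin m × Fin d) : star (t u x y z) = t u x z y := by
  unfold t
  simp only [star_mul', star_o]
  ring

lemma norm_sq_sub_star (w : ℂ) : ‖w - star w‖ ^ 2 = 2 * ‖w‖ ^ 2 - 2 * (w ^ 2).re := by
  rw [norm_sq_sub, star_star, Complex.sq_norm, Complex.sq_norm]
  simp [Complex.normSq_apply, pow_two, Complex.mul_re]
  ring

lemma norm_om_Q (x y z : Fin m × Fin d) :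
    ‖om (Q u x) (Q u y) (Q u z)‖ ^ 2 = 2 * ‖t u x y z‖ ^ 2 - 2 * ((t u x y z) ^ 2).re := by
  have h : t u x z y = star (t u x y z) := (star_t u x y z).symm
  rw [om_Q, h, norm_sq_sub_star]

end basic

section mub
variable {u : Fin m → Mat d} (hU : ∀ j, (u j)ᴴ * u j = 1)
  (hM : ∀ j l, j ≠ l → ∀ a b, ‖((u j)ᴴ * u l) a b‖ ^ 2 = 1 / (d : ℝ))

include hU in
lemma o_same (x y : Fin m × Fin d) (h : x.1 = y.1) : o u x y = if x.2 = y.2 then 1 else 0 := by
  unfold o
  rw [← h, hU, Matrix.one_apply]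

include hU in
lemma o_self (x : Fin m × Fin d) : o u x x = 1 := by
  rw [o_same hU x x rfl]; simp

include hM in
lemma norm_o_diff (x y : Fin m × Fin d) (h : x.1 ≠ y.1) : ‖o u x y‖ ^ 2 = 1 / (d : ℝ) :=
  hM _ _ h _ _

include hU in
lemma sum_P (j : Fin m) : ∑ a, P u (j, a) = 1 := by
  have h : u j * (u j)ᴴ = 1 := mul_eq_one_comm.1 (hU j)
  rw [← h]
  ext p q
  simp [Matrix.sum_apply, P, B, Matrix.mul_apply]

include hU in
lemma trace_P (x : Fin m × Fin d) : trace (P u x) = 1 := by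
  unfold P
  rw [trace_B, o_self hU]

include hU in
lemma trace_Q (hd : d ≠ 0) (x : Fin m × Fin d) : trace (Q u x) = 0 := by
  unfold Q
  rw [trace_sub, trace_P hU, trace_smul, trace_one]
  have : (d : ℂ) ≠ 0 := by exact_mod_cast hd
  simp [this]

include hU in
lemma sum_Q (hd : d ≠ 0) (j : Fin m) : ∑ a, Q u (j, a) = 0 := by
  unfold Q
  rw [Finset.sum_sub_distrib, sum_P hU]
  have : (d : ℂ) ≠ 0 := by exact_mod_cast hd
  simp [Finset.card_univ, ← Nat.cast_smul_eq_nsmul ℂ, smul_smul, this]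

include hU in
lemma trace_Q_Q (hd : d ≠ 0) (x y : Fin m × Fin d) :
    trace (Q u x * Q u y) = o u x y * o u y x - (d : ℂ)⁻¹ := by
  have hdc : (d : ℂ) ≠ 0 := by exact_mod_cast hd
  have e : Q u x * Q u y = P u x * P u y - ((d : ℂ)⁻¹) • P u x - ((d : ℂ)⁻¹) • P u y
      + ((d : ℂ)⁻¹ * (d : ℂ)⁻¹) • 1 := by
    unfold Q
    simp only [sub_mul, mul_sub, smul_mul_assoc, mul_smul_comm, one_mul, mul_one, smul_sub,
      smul_smul]
    abel
  rw [e, trace_add, trace_sub, trace_sub, trace_smul, trace_smul, trace_smul, trace_P hU,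
    trace_P hU, trace_one]
  unfold P
  rw [B_mul_B, trace_smul, trace_B]
  simp only [Fintype.card_fin, smul_eq_mul, mul_one]
  field_simp
  ring

include hU hM in
lemma frame (hd : d ≠ 0) (y : Fin m × Fin d) : R (Q u) (Q u y) = 0 := by
  have hdc : (d : ℂ) ≠ 0 := by exact_mod_cast hd
  have hdr : (d : ℝ) ≠ 0 := by exact_mod_cast hd
  unfold R
  rw [sub_eq_zero, Fintype.sum_prod_type]
  rw [Finset.sum_eq_single y.1]
  · have h1 : ∀ a, trace (Q u (y.1, a) * Q u y) • Q u (y.1, a)
        = (if a = y.2 then Q u (y.1, a) else 0) - ((d : ℂ)⁻¹) • Q u (y.1, a) := by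
      intro a
      rw [trace_Q_Q hU hd, o_same hU (y.1, a) y rfl, o_same hU y (y.1, a) rfl]
      by_cases h : a = y.2
      · subst h; simp [sub_smul]
      · have h' : y.2 ≠ a := Ne.symm h
        simp [h, h', sub_smul]
    simp only [h1, Finset.sum_sub_distrib, ← Finset.smul_sum, sum_Q hU hd, smul_zero, sub_zero]
    simp
  · intro j _ hj
    apply Finset.sum_eq_zero
    intro a _
    rw [trace_Q_Q hU hd, o_mul_o]
    have := hM j y.1 hj a y.2
    have h2 : ‖o u (j, a) y‖ ^ 2 = 1 / (d : ℝ) := this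
    rw [h2]
    simp
  · simp

include hU in
lemma hs_Q (hd : d ≠ 0) (x : Fin m × Fin d) : hs (Q u x) = 1 - (d : ℝ)⁻¹ := by
  have h : ((hs (Q u x) : ℝ) : ℂ) = ((1 - (d : ℝ)⁻¹ : ℝ) : ℂ) := by
    rw [ofReal_hs, Q_herm, trace_Q_Q hU hd, o_self hU]
    simp
  exact_mod_cast h

include hU in
/-- The Frobenius norm of the commutator of two rank-one projectors. -/
lemma hs_cmt_P (x y : Fin m × Fin d) :
    hs (cmt (P u x) (P u y)) = 2 * ‖o u x y‖ ^ 2 - 2 * (‖o u x y‖ ^ 2) ^ 2 := by
  have h : ((hs (cmt (P u x) (P u y)) : ℝ) : ℂ)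
      = ((2 * ‖o u x y‖ ^ 2 - 2 * (‖o u x y‖ ^ 2) ^ 2 : ℝ) : ℂ) := by
    have e1 : cmt (P u x) (P u y) = o u x y • B u x y - o u y x • B u y x := by
      unfold cmt P
      rw [B_mul_B, B_mul_B]
    have e2 : (cmt (P u x) (P u y))ᴴ = o u y x • B u y x - o u x y • B u x y := by
      rw [e1, conjTranspose_sub, conjTranspose_smul, conjTranspose_smul, conjTranspose_B,
        conjTranspose_B, star_o, star_o]
    rw [ofReal_hs, e2, e1]
    simp only [sub_mul, mul_sub, smul_mul_assoc, mul_smul_comm, B_mul_B, smul_smul, trace_sub,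
      trace_smul, trace_B, smul_eq_mul, o_self hU]
    have hτ : ((‖o u x y‖ : ℝ) : ℂ) ^ 2 = o u x y * o u y x := by
      rw [o_mul_o]; push_cast; rfl
    push_cast
    rw [hτ]
    ring
  exact_mod_cast h

include hU hM in
lemma hs_cmt_Q (hd : d ≠ 0) (x y : Fin m × Fin d) :
    hs (cmt (Q u x) (Q u y)) = if x.1 ≠ y.1 then 2 / (d : ℝ) - 2 / (d : ℝ) ^ 2 else 0 := by
  have hdr : (d : ℝ) ≠ 0 := by exact_mod_cast hd
  rw [cmt_Q, hs_cmt_P hU]
  by_cases h : x.1 = y.1
  · have h0 := o_same hU x y h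
    by_cases h2 : x.2 = y.2
    · simp [h, h0, h2]
    · simp [h, h0, h2]
  · rw [if_pos h, norm_o_diff hM x y h]
    field_simp

include hU in
lemma t_swap_of_not_distinct (x y z : Fin m × Fin d)
    (h : ¬ (x.1 ≠ y.1 ∧ y.1 ≠ z.1 ∧ z.1 ≠ x.1)) : t u x y z = t u x z y := by
  unfold t
  by_cases hxy : x.1 = y.1
  · by_cases e : x.2 = y.2
    · have : x = y := Prod.ext hxy e
      subst this
      rw [o_self hU]; ring
    · rw [o_same hU x y hxy, o_same hU y x hxy.symm, if_neg e, if_neg (Ne.symm e)]; ring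
  · by_cases hyz : y.1 = z.1
    · by_cases e : y.2 = z.2
      · have : y = z := Prod.ext hyz e
        subst this
        rfl
      · rw [o_same hU y z hyz, o_same hU z y hyz.symm, if_neg e, if_neg (Ne.symm e)]; ring
    · have hzx : z.1 = x.1 := by
        by_contra hzx
        exact h ⟨hxy, hyz, hzx⟩
      by_cases e : z.2 = x.2
      · have : z = x := Prod.ext hzx e
        subst this
        rw [o_self hU]; ring
      · rw [o_same hU z x hzx, o_same hU x z hzx.symm, if_neg e, if_neg (Ne.symm e)]; ring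

include hU hM in
lemma norm_om_Q_eq (hd : d ≠ 0) (x y z : Fin m × Fin d) :
    ‖om (Q u x) (Q u y) (Q u z)‖ ^ 2
      = if x.1 ≠ y.1 ∧ y.1 ≠ z.1 ∧ z.1 ≠ x.1 then
          2 / (d : ℝ) ^ 3 - 2 * ((t u x y z) ^ 2).re else 0 := by
  have hdr : (d : ℝ) ≠ 0 := by exact_mod_cast hd
  by_cases h : x.1 ≠ y.1 ∧ y.1 ≠ z.1 ∧ z.1 ≠ x.1
  · rw [if_pos h, norm_om_Q]
    have : ‖t u x y z‖ ^ 2 = 1 / (d : ℝ) ^ 3 := by
      unfold t
      rw [norm_mul, norm_mul, mul_pow, mul_pow, norm_o_diff hM x y h.1,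
        norm_o_diff hM y z h.2.1, norm_o_diff hM z x h.2.2]
      field_simp
    rw [this]
    ring
  · rw [if_neg h, om_Q, t_swap_of_not_distinct hU x y z h]
    simp

end mub

end Vale.Agent.Lib.P355
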